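import Vale.Agent.Lib.P336.Parity

namespace Vale.Agent.Results.P336.BottomFaninParity

open Vale.Agent.Lib.P336

/-- **Parity against depth-three circuits of bounded bottom fan-in.**
(1) An OR-AND-OR circuit computing parity on `n ≥ 1` variables in which every bottom gate
reads at most `k ≥ 1` literals has at least `2 ^ (n / k - 1)` middle gates.
(2) In particular, if `k ≤ n ^ (1/2 - ε)` it has at least `2 ^ (n ^ (1/2 + ε) - 1)` middle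
gates. -/
theorem result :
    (∀ (n k : ℕ), 1 ≤ n → 1 ≤ k → ∀ Φ : Circuit n, ComputesParity Φ →
      (∀ F ∈ Φ, ∀ C ∈ F, C.card ≤ k) →
      (2:ℝ) ^ ((n:ℝ) / k - 1) ≤ (Φ.card : ℝ)) ∧
    (∀ (ε : ℝ) (n k : ℕ), 1 ≤ n → 1 ≤ k → (k:ℝ) ≤ (n:ℝ) ^ ((1:ℝ) / 2 - ε) →
      ∀ Φ : Circuit n, ComputesParity Φ → (∀ F ∈ Φ, ∀ C ∈ F, C.card ≤ k) →
      (2:ℝ) ^ ((n:ℝ) ^ ((1:ℝ) / 2 + ε) - 1) ≤ (Φ.card : ℝ)) :=
  ⟨fun n k hn hk Φ hΦ hfan => parity_bottom_fanin n k hn hk Φ hΦ hfan,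
    fun ε n k hn hk hkn Φ hΦ hfan => parity_bottom_fanin_eps ε n k hn hk hkn Φ hΦ hfan⟩

end Vale.Agent.Results.P336.BottomFaninParity
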