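import Vale.Agent.Lib.P336.Parity

namespace Vale.Agent.Results.P336.ParityTradeoff

open Vale.Agent.Lib.P336

/-- **Trade-off for depth-three circuits computing parity.**
(1) For every `k ≥ 1`, an OR-AND-OR circuit computing parity on `n ≥ 1` variables with `T`
middle gates, of whose bottom gates `W` read more than `k` literals, satisfies
`1 ≤ T * 2 ^ (1 - n / k) + W * (k + 1) / 2 ^ k`.
(2) Consequently the number of middle gates plus the number of bottom gates is at least
`2 ^ √n / (√n + 4)`. -/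
theorem result :
    (∀ (n k : ℕ), 1 ≤ n → 1 ≤ k → ∀ Φ : Circuit n, ComputesParity Φ →
      1 ≤ (Φ.card : ℝ) * (2:ℝ) ^ (1 - (n:ℝ) / k)
        + (((bottomGates Φ).filter fun C => k < C.card).card : ℝ) * ((k:ℝ) + 1) / 2 ^ k) ∧
    (∀ (n : ℕ), 1 ≤ n → ∀ Φ : Circuit n, ComputesParity Φ →
      (2:ℝ) ^ Real.sqrt n / (Real.sqrt n + 4) ≤ (Φ.card : ℝ) + ((bottomGates Φ).card : ℝ)) :=
  ⟨fun n k hn hk Φ hΦ => parity_tradeoff n k hn hk Φ hΦ,
    fun n hn Φ hΦ => parity_size n hn Φ hΦ⟩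

end Vale.Agent.Results.P336.ParityTradeoff
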